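import Vale.Agent.P212.Bdl.B4

namespace Vale.Agent.Results.P212.MaxCoarseNovikovFails

open Vale.Agent.P212

theorem result : ∃ (X : Type) (_ : MetricSpace X) (_ : BddGeometry X) (_ : UnifDiscrete X)
    (H A : Type) (_ : NormedAddCommGroup H) (_ : InnerProductSpace ℂ H)
    (_ : CompleteSpace H) (_ : NonUnitalCStarAlgebra A), Counterexample X H A :=
  exists_counterexample

end Vale.Agent.Results.P212.MaxCoarseNovikovFails
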