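import Vale.Agent.P212.Bdl.B4

namespace Vale.Agent.Results.P212.MaxRoeZeroOnHomology

open Vale.Agent.P212

theorem result : ∃ (X : Type) (_ : MetricSpace X) (_ : BddGeometry X) (_ : UnifDiscrete X)
    (W : Set X),
    (∃ (H H' A A' : Type) (_ : NormedAddCommGroup H) (_ : InnerProductSpace ℂ H)
      (_ : CompleteSpace H) (_ : NormedAddCommGroup H') (_ : InnerProductSpace ℂ H')
      (_ : CompleteSpace H') (_ : NonUnitalCStarAlgebra A) (_ : NonUnitalCStarAlgebra A'),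
      ZeroOnK0 W H H' A A') ∧
    ∃ c : (Fin 3 → W) → ℤ, Controlled c ∧ bdry c = 0 ∧ ∀ N : ℕ, 1 ≤ N →
      ∀ b : (Fin 4 → X) → ℤ, Controlled b → bdry b ≠ fun x => (N : ℤ) * extendChain W c x :=
  main2

end Vale.Agent.Results.P212.MaxRoeZeroOnHomology
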